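import Vale.Agent.P365.X7.Unif
import Vale.Agent.P365.X7.Coin

namespace Vale.Agent.P365.SparseRes

open MeasureTheory ProbabilityTheory P365L P365L.Comp

/-- `H = hop + V` has pure point spectrum: its eigenvectors span a dense subspace of `ℓ²(ℤ²)` -/
def PurePoint (V : Site → ℝ) : Prop :=
  (Submodule.span ℂ {u : L2 | ∃ E : ℝ, ∀ x : Site,
    hop (fun y => u y) x + ((V x : ℝ) : ℂ) * u x = (E : ℂ) * u x}).topologicalClosure = ⊤

/-- every spectral measure of `H = hop + V` is carried by a countable set -/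
def AtomicSpectrum (V : Site → ℝ) : Prop :=
  ∀ (ψ : L2) (μ : Measure ℝ), IsSpectralMeasure V ψ μ → ∃ S : Set ℝ, S.Countable ∧ μ Sᶜ = 0

/-- the uniform law on `[-1, 1]` -/
noncomputable def U : Measure ℝ := cond volume (Set.Icc (-1) 1)

/-- the law of a coin which shows `true` with probability `p` -/
noncomputable def coin (p : ℝ) : Measure Bool :=
  ENNReal.ofReal (1 - p) • Measure.dirac false + ENNReal.ofReal p • Measure.dirac true

/-- almost sure localization for `hop + lam V` where, independently at each site `x`,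
`V x = w x` with `w x` uniform on `[-1, 1]`, except that with probability `p` (when the coin
`b x` shows `true`) this value is replaced by an independent value `t x` of law `τ` -/
def Resampled (p : ℝ) (τ : Measure ℝ) (lam : ℝ) : Prop :=
  ∀ (Ω : Type) [MeasurableSpace Ω] (P : Measure Ω) [IsProbabilityMeasure P]
    (w : Site → Ω → ℝ) (b : Site → Ω → Bool) (t : Site → Ω → ℝ),
    (∀ x, Measurable (w x)) → (∀ x, Measurable (b x)) → (∀ x, Measurable (t x)) →
    iIndepFun (fun x o => (w x o, b x o, t x o)) P →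
    (∀ x, P.map (fun o => (w x o, b x o, t x o)) = U.prod ((coin p).prod τ)) →
    ∀ᵐ o ∂P, PurePoint (fun x => lam * (if b x o = true then t x o else w x o)) ∧
      AtomicSpectrum (fun x => lam * (if b x o = true then t x o else w x o))

/-- almost sure localization for `hop + lam V`, `V` iid of law `m` -/
def Localized (m : Measure ℝ) (lam : ℝ) : Prop :=
  ∀ (Ω : Type) [MeasurableSpace Ω] (P : Measure Ω) [IsProbabilityMeasure P] (V : Site → Ω → ℝ),
    (∀ x, Measurable (V x)) → iIndepFun V P → (∀ x, P.map (V x) = m) →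
    ∀ᵐ o ∂P, PurePoint (fun x => lam * V x o) ∧ AtomicSpectrum (fun x => lam * V x o)

/-- `τ` is a probability law with bounded density -/
def Regular (τ : Measure ℝ) : Prop :=
  IsProbabilityMeasure τ ∧ ∃ K : ℝ, τ ≤ ENNReal.ofReal K • volume

theorem isProb_U : IsProbabilityMeasure U := isProbabilityMeasure_unif

/-- localization for the law `(1 - p) U + p τ` gives localization for the resampled potential -/
theorem resampled_of_localized {p : ℝ} (hp : 0 < p) (hp1 : p < 1) {τ : Measure ℝ}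
    [IsProbabilityMeasure τ] {lam : ℝ}
    (h : Localized (ENNReal.ofReal (1 - p) • U + ENNReal.ofReal p • τ) lam) :
    Resampled p τ lam := by
  intro Ω _ P _ w b t hw hb ht hi hl
  have := isProb_U
  have hT : ∀ x, Measurable fun o => (w x o, b x o, t x o) := fun x =>
    (hw x).prodMk ((hb x).prodMk (ht x))
  refine h Ω P (fun x o => if b x o = true then t x o else w x o)
    (fun x => X7.measurable_pick.comp (hT x))
    (hi.comp (fun _ => X7.pick) fun _ => X7.measurable_pick) fun x => ?_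
  rw [← X7.map_pick hp hp1 U τ]
  have h1 : P.map (fun o => (w x o, b x o, t x o)) = U.prod ((X7.coin p).prod τ) := hl x
  rw [← h1, Measure.map_map X7.measurable_pick (hT x)]
  rfl

/-- the core: a law dominated by a law with localization, at least `(1-p) U` -/
theorem core {p : ℝ} (hp : 0 < p) (hp1 : p < 1) {m : Measure ℝ} [IsProbabilityMeasure m]
    (hU : ENNReal.ofReal (1 - p) • U ≤ m) {K : ℝ} (hK : m ≤ ENNReal.ofReal K • volume) :
    ∃ τ : Measure ℝ, Regular τ ∧ (∀ s : Set ℝ, m s = 0 → τ s = 0) ∧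
      ∀ lam : ℝ, Localized m lam → Resampled p τ lam ∧
        Localized (ENNReal.ofReal (1 - p) • U + ENNReal.ofReal p • τ) lam := by
  have := isProb_U
  obtain ⟨τ, h1, h2, h3⟩ := X7.exists_mix hp hp1 U m hU
  refine ⟨τ, ⟨h1, _, X7.mix_le_volume hp h3 hK⟩, fun s hs => X7.mix_null h3 hs, fun lam hl => ?_⟩
  rw [h2] at hl
  exact ⟨resampled_of_localized hp hp1 hl, hl⟩

/-- **Two-dimensional localization at every energy and every disorder for the uniform law modified
on a sparse random set of sites.** For every `p ∈ (0, 1)`, however small: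

(i) there is a law `τ` of bounded density such that for every `lam > 0` the operator
`hop + lam V` on `ℓ²(ℤ²)`, with `V x` uniform on `[-1,1]` except that each site is independently
resampled from `τ` with probability `p`, has almost surely pure point spectrum;

(ii) for every `lam₁ > 0` there is such a law `τ` which is moreover compactly supported (so that
the operators are bounded), one law for all `lam ≥ lam₁`. -/
theorem result :
    (∀ p : ℝ, 0 < p → p < 1 → ∃ τ : Measure ℝ, Regular τ ∧ ∀ lam : ℝ, 0 < lam →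
      Resampled p τ lam ∧ Localized (ENNReal.ofReal (1 - p) • U + ENNReal.ofReal p • τ) lam) ∧
    (∀ p : ℝ, 0 < p → p < 1 → ∀ lam₁ : ℝ, 0 < lam₁ → ∃ τ : Measure ℝ, Regular τ ∧
      (∃ X : ℝ, τ (Set.Icc (-X) X)ᶜ = 0) ∧ ∀ lam : ℝ, lam₁ ≤ lam →
      Resampled p τ lam ∧ Localized (ENNReal.ofReal (1 - p) • U + ENNReal.ofReal p • τ) lam) ∧
    (∀ (V : Site → ℝ) (ψ : L2), ∃ μ : Measure ℝ, IsSpectralMeasure V ψ μ ∧
      μ.real Set.univ = ‖ψ‖ ^ 2) := by
  have key : ∀ p : ℝ, 0 < p → p < 1 → ∃ a : ℝ, 0 < a ∧ ∃ κ : ℝ, 0 < κ ∧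
      ENNReal.ofReal (1 - p) • U ≤ qlaw κ (X7.unifb (1 + a)) := by
    intro p hp hp1
    obtain ⟨a, ha, _, κ, hκ, H⟩ := X7.le_qlaw_mix hp hp1
    exact ⟨a, ha, κ, hκ, H κ hκ le_rfl⟩
  refine ⟨?_, ?_, exists_spectralMeasure⟩
  · intro p hp hp1
    obtain ⟨a, ha, κ, hκ, H⟩ := key p hp hp1
    have : IsProbabilityMeasure (X7.unifb (1 + a)) := X7.isProb_unifb (by linarith)
    have hρ := X7.unifb_compl (1 + a)
    obtain ⟨τ, h1, _, h2⟩ := core hp hp1 H (X7.qlaw_le_volume hκ (X7.unifb (1 + a)))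
    refine ⟨τ, h1, fun lam hlam => h2 lam ?_⟩
    intro Ω _ P _ V hV hi hl
    obtain ⟨c, hc, hlow⟩ := X7.le_qlaw hκ (X7.unifb (1 + a)) hρ (max 1 lam⁻¹)
    have hb : 1 ≤ lam * max 1 lam⁻¹ := by
      calc (1 : ℝ) = lam * lam⁻¹ := (mul_inv_cancel₀ hlam.ne').symm
        _ ≤ lam * max 1 lam⁻¹ := mul_le_mul_of_nonneg_left (le_max_right _ _) hlam.le
    obtain ⟨δ, hδ, _, h⟩ := X7.core_unif hκ (X7.unifb (1 + a)) hρ hc hlam (le_max_left _ _) hb
    have hdom : qlaw κ (X7.unifb (1 + a)) ≤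
        ENNReal.ofReal (1 + δ) • qlaw κ (X7.unifb (1 + a)) := by
      refine Measure.le_iff'.2 fun s => ?_
      rw [Measure.smul_apply, smul_eq_mul]
      refine le_mul_of_one_le_left' ?_
      rw [ENNReal.one_le_ofReal]
      linarith
    exact h _ hdom hlow lam le_rfl P V hV hi hl
  · intro p hp hp1 lam₁ hlam₁
    obtain ⟨a, ha, κ, hκ, H⟩ := key p hp hp1
    have : IsProbabilityMeasure (X7.unifb (1 + a)) := X7.isProb_unifb (by linarith)
    have hρ := X7.unifb_compl (1 + a)
    have hb : 1 ≤ lam₁ * max 1 lam₁⁻¹ := by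
      calc (1 : ℝ) = lam₁ * lam₁⁻¹ := (mul_inv_cancel₀ hlam₁.ne').symm
        _ ≤ lam₁ * max 1 lam₁⁻¹ := mul_le_mul_of_nonneg_left (le_max_right _ _) hlam₁.le
    obtain ⟨c, hc, hlow⟩ := X7.le_trunc_window hκ (X7.unifb (1 + a)) hρ (max 1 lam₁⁻¹)
    obtain ⟨δ, hδ, _, h⟩ := X7.core_unif hκ (X7.unifb (1 + a)) hρ hc hlam₁ (le_max_left _ _) hb
    obtain ⟨X₀, hX₀, hX⟩ := X7.trunc_le (qlaw κ (X7.unifb (1 + a))) hδ
    obtain ⟨X, hXe⟩ : ∃ X : ℝ, X = max X₀ (max 1 lam₁⁻¹) := ⟨_, rfl⟩
    have hX1 : X₀ ≤ X := hXe ▸ le_max_left _ _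
    have hX2 : max 1 lam₁⁻¹ ≤ X := hXe ▸ le_max_right _ _
    have hX3 : 1 ≤ X := (le_max_left _ _).trans hX2
    have hXp : 0 < X := by linarith
    have : IsProbabilityMeasure (X7.trunc (qlaw κ (X7.unifb (1 + a))) X) :=
      X7.isProb_trunc hκ _ hρ hXp
    obtain ⟨K, _, hK⟩ := X7.trunc_le_volume hκ (X7.unifb (1 + a)) hρ hXp
    obtain ⟨τ, h1, h0, h2⟩ := core hp hp1 (X7.le_trunc_mix hp1 H hX3) hK
    refine ⟨τ, h1, ⟨X, h0 _ (X7.trunc_compl _ X)⟩, fun lam hlam => h2 lam ?_⟩
    intro Ω _ P _ V hV hi hl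
    exact h _ (hX X hX1) (hlow X hX2) lam hlam P V hV hi hl

end Vale.Agent.P365.SparseRes
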